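import Vale.Agent.Lib.P304.Main

/-!
# P304: the randomized k-server ratio `R(k)` is nondecreasing in `k`

The definitions (`serveCost`, `opt`, `cost`, `RandPolicy`, `expCost`, `IsCompetitive`, `rho`, `R`)
are in `Vale/Agent/Lib/P304/Defs.lean` and follow the problem file.

Idea: add to `X` one point `p` at distance `1 + d(x0, x)` from `x`, put the extra server on `p`,
and replace every request `r` by `r, p, r, p, ...` repeated a number of times that depends only on
the earlier requests.  A policy with `k + 1` servers on the larger space is turned into a policy
with `k` servers on `X`; a matching potential between real and simulated servers shows that it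
never pays more, for every outcome of the randomness.
-/

namespace Vale.Agent.Results.P304.Monotone

open Vale.Agent.Lib.P304

/-- `R(k) ≤ R(k')` whenever `1 ≤ k ≤ k'`. -/
theorem result : ∀ k k' : ℕ, 1 ≤ k → k ≤ k' → R k ≤ R k' :=
  fun k k' hk h => R_monotone k k' hk h

end Vale.Agent.Results.P304.Monotone
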